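import Vale.Agent.P281.H716.Sys
import Vale.Agent.P281.H76.FibKod
import Vale.Agent.P281.H76.Red2
import Vale.Agent.P281.H597.SA.R

/-! P281, theorem KD, block FK: lemmas of H716/Inst.lean (helper716) with light imports: the divisor
systems on `X` and on the fibre; adjunction. -/

open scoped Manifold ContDiff Topology ComplexOrder Matrix
open Set Filter Vale.Agent.P281 Vale.Agent.P272.K
open Vale.Agent.P281.H949.SA Vale.Agent.P281.H716 Vale.Agent.P281.H716.IsSys Vale.Agent.P281.MF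

set_option linter.all false

noncomputable section

namespace Vale.Agent.P281.H776.KD

theorem mem_iffE {E : Type} [NormedAddCommGroup E] [NormedSpace ℂ E] {X : Type}
    [TopologicalSpace X] [ChartedSpace E X] {D : Set X} {g : X → ℂ} {x : X}
    (h : J.IsLocalEq E D g x) : x ∈ D ↔ g x = 0 := by
  obtain ⟨V, -, hx, -, h2, -⟩ := h
  exact h2 x hx

section inst

variable {n : ℕ} {X : Type} [TopologicalSpace X] [ChartedSpace (Cm n) X]
  [IsManifold 𝓘(ℂ, Cm n) ω X]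

variable {d : ℕ} {F : Type} [TopologicalSpace F] [ChartedSpace (Cm d) F]
  [IsManifold 𝓘(ℂ, Cm d) ω F] {ρ : F → X}

/-- the pull-back of the local equations -/
def eqF (n : ℕ) {X F : Type} [TopologicalSpace X] [ChartedSpace (Cm n) X] [TopologicalSpace F]
    (ρ : F → X) (D : Set X) (t : F) (g : F → ℂ) : Prop :=
  ∃ e, J.IsLocalEq (Cm n) D e (ρ t) ∧ ∀ᶠ t' in 𝓝 t, g t' = e (ρ t')

theorem isSys_eqF [PreconnectedSpace F] (hρ : ∀ p, HolM (Cm d) (Cm n) ρ p) {T : Finset (Set X)}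
    (hT : ∀ D ∈ T, ∀ x, ∃ g, J.IsLocalEq (Cm n) D g x) (hne : ∀ D ∈ T, ∃ t, ρ t ∉ D) :
    IsSys d (eqF n ρ) T where
  ex D hD t := by
    obtain ⟨g, hg⟩ := hT D hD (ρ t)
    exact ⟨fun t' => g (ρ t'), g, hg, Eventually.of_forall fun _ => rfl⟩
  hol D t g hg := eqnF_hol (E := Cm n) hρ hg
  per D t g hg := by
    obtain ⟨e, he, hev⟩ := hg
    filter_upwards [(hρ t).continuousAt.eventually
      (IsLocalEq.eventually (E := Cm n) (D := D) he), eventually_eventually_nhds.2 hev] with t' h1 h2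
    exact ⟨e, h1, h2⟩
  unit D t g g' hg hg' := by
    obtain ⟨e, he, hev⟩ := hg
    obtain ⟨e', he', hev'⟩ := hg'
    obtain ⟨w, hw, hw0, hwe⟩ := H76.unit_ratio_red (E := Cm n) (D := D) he he'
    refine ⟨fun t' => w (ρ t'), HolV.comp hw (hρ t), hw0, ?_⟩
    filter_upwards [hev, hev', (hρ t).continuousAt.eventually hwe] with t' h1 h2 h3
    rw [h1, h2, h3]
  nz D hD t g hg := by
    have h1 : Dense {p | ρ p ∉ D} := H76.dense_restrict (E := Cm n) hρ (hT D hD) (hne D hD)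
    have h2 : ∃ᶠ p in 𝓝 t, ρ p ∉ D := mem_closure_iff_frequently.1 (h1 t)
    refine (h2.and_eventually (eqnF_mem (E := Cm n) hρ hg)).mono ?_
    rintro p ⟨h3, h4⟩ h0
    exact h3 (h4.2 h0)

/-- the complement of the divisors, on the fibre -/
lemma off_eqF (hρ : ∀ p, HolM (Cm d) (Cm n) ρ p) {T : Finset (Set X)}
    (hT : ∀ D ∈ T, ∀ x, ∃ g, J.IsLocalEq (Cm n) D g x) {t : F} :
    t ∈ off (eqF n ρ) T ↔ ∀ D ∈ T, ρ t ∉ D := by
  constructor
  · intro hx D hD hxD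
    obtain ⟨g, hg⟩ := hT D hD (ρ t)
    exact hx D hD (fun t' => g (ρ t')) ⟨g, hg, Eventually.of_forall fun _ => rfl⟩
      ((mem_iffE hg).1 hxD)
  · rintro hx D hD g ⟨e, he, hev⟩ h0
    rw [hev.self_of_nhds] at h0
    exact hx D hD ((mem_iffE he).2 h0)

end inst

section rep

variable {n : ℕ} {X : Type} [TopologicalSpace X] [ChartedSpace (Cm n) X]
  [IsManifold 𝓘(ℂ, Cm n) ω X] {κ κ' : Type} {eqn : κ → X → (X → ℂ) → Prop} {T : Finset κ}

lemma rep' (h : IsSys n eqn T) {k : κ → ℕ} (hk : ∀ D, k D ≠ 0 → D ∈ T) {m : ℕ} {s : X → ℂ}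
    (hs : J.IsSection (Cm n) eqn m k s) (x : X) : ∃ a, HolV (Cm n) a x ∧
      ∀ᶠ z in 𝓝 x, h.GG k x z ≠ 0 → s z * h.GG k x z = a z * jac (Cm n) (chartAt (Cm n) x) z ^ m := by
  obtain ⟨T', g, a, hT', hg, ha, hev⟩ := hs x
  obtain ⟨w, hw, hw0, hwe⟩ := h.prod_unit hk hT' hg (h.self_mem_dom x)
  refine ⟨fun z => a z / w z, HolV.div ha hw hw0, ?_⟩
  filter_upwards [hev, hwe, hw.continuousAt.eventually_ne hw0] with z h1 h2 h3 h4
  rw [h2] at h1
  have h5 := h1 (mul_ne_zero h3 h4)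
  rw [div_mul_eq_mul_div, eq_div_iff h3]
  have h6 : s z * (w z * h.GG k x z) = a z * jac (Cm n) (chartAt (Cm n) x) z ^ m := h5
  linear_combination h6

variable {e : Chart n X} {x : X}

omit [IsManifold 𝓘(ℂ, Cm n) ω X] in
lemma at_evE (hx : At e x) : ∀ᶠ y in 𝓝 x, At e y := by
  filter_upwards [e.open_source.mem_nhds hx.2] with y hy using ⟨hx.1, hy⟩

omit [IsManifold 𝓘(ℂ, Cm n) ω X] in
lemma dom_evE (h : IsSys n eqn T) {i : X} (hi : x ∈ h.dom i) : ∀ᶠ y in 𝓝 x, y ∈ h.dom i :=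
  isOpen_interior.mem_nhds hi

end rep

/-! ### adjunction -/

section adj

variable {n p d : ℕ} {X Z Y F : Type} [TopologicalSpace X] [ChartedSpace (Cm n) X]
  [IsManifold 𝓘(ℂ, Cm n) ω X] [TopologicalSpace Z] [ChartedSpace (Cm n) Z]
  [IsManifold 𝓘(ℂ, Cm n) ω Z] [TopologicalSpace Y] [ChartedSpace (Cm p) Y]
  [IsManifold 𝓘(ℂ, Cm p) ω Y] [TopologicalSpace F] [ChartedSpace (Cm d) F]
  [IsManifold 𝓘(ℂ, Cm d) ω F]

theorem adjF (hn : n = p + d) {j : Z → X} (hj : ∀ z, HolM (Cm n) (Cm n) j z)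
    (hjd : ∀ z, (dM (Cm n) (Cm n) j z).det ≠ 0) {f : Z → Y}
    (hf : ∀ z, HolM (Cm n) (Cm p) f z) {i : F → Z}
    (hi : H713.IsSmoothFibre (Cm n) (Cm p) (Cm d) f i) :
    ∃ G : F → ℂ, (∀ t, G t ≠ 0) ∧ ∀ p₀, ∃ η : F → ℂ, HolV (Cm d) η p₀ ∧ η p₀ ≠ 0 ∧
      ∀ᶠ t in 𝓝 p₀, jac (Cm n) (chartAt (Cm n) (j (i p₀))) (j (i t)) * G t =
        η t * jac (Cm d) (chartAt (Cm d) p₀) t := by
  have e : Cm n ≃L[ℂ] (Cm p × Cm d) := ContinuousLinearEquiv.ofFinrankEq (by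
    rw [Module.finrank_prod]
    simp [Cm, hn])
  have hih : ∀ p, HolM (Cm d) (Cm n) i p := fun p => hi.hol p
  have himm : ∀ p, Function.Injective (dM (Cm d) (Cm n) i p) := hi.immersive
  have hsub : ∀ t, Function.Surjective (dM (Cm n) (Cm p) f (i t)) := hi.submersive
  choose Q hQ using fun p => exists_left_inv (himm p)
  have hAD : ∀ t v, dM (Cm n) (Cm p) f (i t) (dM (Cm d) (Cm n) i t v) = 0 := by
    intro t v
    have h1 : (dM (Cm n) (Cm p) f (i t)).comp (dM (Cm d) (Cm n) i t) =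
        dM (Cm d) (Cm p) (fun p => f (i p)) t := by
      have := mfderiv_comp t (ContMDiffAt.mdifferentiableAt (hf (i t)) (by simp))
        (ContMDiffAt.mdifferentiableAt (hih t) (by simp))
      exact this.symm
    have h2 : (fun p => f (i p)) = fun _ => f (i t) := funext fun p' => hi.const p' t
    have h3 : dM (Cm d) (Cm p) (fun p => f (i p)) t = 0 := by
      rw [h2]; unfold dM; rw [mfderiv_const]; rfl
    have h4 := congrArg (fun T : Cm d →L[ℂ] Cm p => T v) (h1.trans h3)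
    exact h4
  have hJ : ∀ t, JP e (dM (Cm n) (Cm p) f (i t)) (Q t) ≠ 0 := fun t =>
    JP_ne_zero e (hAD t) (hQ t) (hsub t)
  refine ⟨fun t => (dM (Cm n) (Cm n) j (i t)).det * (JP e (dM (Cm n) (Cm p) f (i t)) (Q t))⁻¹,
    fun t => mul_ne_zero (hjd _) (inv_ne_zero (hJ t)), ?_⟩
  intro p₀
  obtain ⟨η, hη, hηe⟩ := H597.SA.adj_local e hf hih p₀ (fun p => hi.const p p₀) (hsub p₀) (himm p₀)
  have h1 : HolV (Cm n) (fun w => chartAt (Cm n) (j (i p₀)) (j w)) (i p₀) :=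
    HolV.comp (h := (chartAt (Cm n) (j (i p₀)) : X → Cm n))
      (HolV.chart (mem_chart_source (Cm n) (j (i p₀)))) (hj (i p₀))
  obtain ⟨R, hR, hRe⟩ := H76.jac_local h1
  have hc := (hih p₀).continuousAt
  have hev : ∀ᶠ t in 𝓝 p₀, jac (Cm n) (chartAt (Cm n) (j (i p₀))) (j (i t)) *
      ((dM (Cm n) (Cm n) j (i t)).det * (JP e (dM (Cm n) (Cm p) f (i t)) (Q t))⁻¹) =
        R (i t) * η t * jac (Cm d) (chartAt (Cm d) p₀) t := by
    filter_upwards [hηe, hc.eventually hRe, hc.eventually (H76.jac_comp (hj (i p₀)))] with t h2 h3 h4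
    have h5 := h2 (Q t) (hQ t)
    have h6 := hJ t
    rw [← mul_assoc, ← h4, h3, h5]
    set jp := JP e (dM (Cm n) (Cm p) f (i t)) (Q t)
    field_simp
  refine ⟨fun t => R (i t) * η t, (HolV.comp (h := R) hR (hih p₀)).mul hη, ?_, hev⟩
  intro h0
  have h2 := hev.self_of_nhds
  have h3 : R (i p₀) * η p₀ = 0 := h0
  rw [h3, zero_mul] at h2
  exact (mul_ne_zero (jac_chart_ne_zero (mem_chart_source (Cm n) (j (i p₀))))
    (mul_ne_zero (hjd _) (inv_ne_zero (hJ p₀)))) h2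

end adj

end Vale.Agent.P281.H776.KD
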