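import Vale.Agent.P281.H713.KD.Iface
import Vale.Agent.P281.H776.KD.Inst0
import Vale.Agent.P299.H956.D1.Pull2

/-! P281, theorem KD, block FK: the form on the fibre and the norms of sections. -/

open scoped Manifold ContDiff Topology ComplexOrder Matrix
open Set Filter Vale.Agent.P281 Vale.Agent.P272.K Vale.Agent.P299
open Vale.Agent.P281.H949.SA Vale.Agent.P281.H716 Vale.Agent.P281.H716.IsSys
open Vale.Agent.P281.MF Vale.Agent.P281.H713.KD
open Vale.Agent.P272.K.INT (IsClosedForm)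

set_option linter.all false

noncomputable section

namespace Vale.Agent.P281.H776.KD

section pull

variable {d n : ℕ} {N X : Type*} [TopologicalSpace N] [TopologicalSpace X]
  [ChartedSpace (Cm d) N] [ChartedSpace (Cm n) X]
  [IsManifold 𝓘(ℂ, Cm d) ω N] [IsManifold 𝓘(ℂ, Cm n) ω X] {f : N → X}

/-- the pull-back of a closed form is closed -/
theorem isClosedForm_pullM {w : D.FormM n X} (hw : IsClosedForm w)
    (hf : ContMDiff 𝓘(ℂ, Cm d) 𝓘(ℂ, Cm n) ω f) : IsClosedForm (D.pullM f w : D.FormM d N) where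
  smooth e y h i j := H956.smooth_pullM hw.form hw.smooth hf.contMDiffAt h i j
  form := H956.isForm_pullM hw.form hf
  closed e y h i k l := by
    have hc : At (chartAt (Cm n) (f y)) (f y) := H956.at_chartAt (n := n) (f y)
    set c := chartAt (Cm n) (f y)
    have hf' : ContMDiffAt 𝓘(ℂ, Cm d) 𝓘(ℂ, Cm n) ω f y := hf.contMDiffAt
    have h1 := H956.pullM_eventually hw.form hf' h hc
    have hτ := H956.rep_hol hf' h hc
    have e1 : ∀ i j, (fun z => D.pullM f w e z i j) =ᶠ[𝓝 (e y)] fun z =>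
        (((H956.jmR (fun z => c (f (e.symm z))) z).transpose * w c (c (f (e.symm z))) *
          (H956.jmR (fun z => c (f (e.symm z))) z).map (starRingEnd ℂ)) i j) := by
      intro i j
      filter_upwards [h1] with z hz
      rw [hz]
    rw [dz_congr (e1 k l), dz_congr (e1 i l)]
    have hy : c (f (e.symm (e y))) = c (f y) := by rw [h.left_inv]
    refine H956.closed_comp (τ := fun z => c (f (e.symm z))) (b := fun z => w c z) hτ ?_ ?_ k l i
    · intro i j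
      simp only [hy]
      exact (hw.smooth c (f y) hc i j).differentiableAt (by simp)
    · intro i j k
      simp only [hy]
      exact hw.closed c (f y) hc k i j

end pull

section mat

variable {d n : ℕ}

theorem psd_pull {J : Matrix (Fin n) (Fin d) ℂ} {A : Matrix (Fin n) (Fin n) ℂ}
    (hA : A.PosSemidef) : (J.transpose * A * J.map (starRingEnd ℂ)).PosSemidef := by
  have h1 : J.transpose = (J.map (starRingEnd ℂ)).conjTranspose := by
    ext i j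
    simp [Matrix.conjTranspose_apply]
  rw [h1]
  exact hA.conjTranspose_mul_mul_same _

theorem ker_iff {C : Matrix (Fin n) (Fin n) ℂ} (hC : C.PosSemidef) (v : Cm n) :
    (∀ j, ∑ i, v i * C i j = 0) ↔ star (star v) ⬝ᵥ (C *ᵥ star v) = 0 := by
  rw [hC.dotProduct_mulVec_zero_iff, funext_iff]
  refine forall_congr' fun j => ?_
  have h2 : (C.mulVec (star v)) j = star (∑ i, v i * C i j) := by
    rw [star_sum]
    simp only [Matrix.mulVec, dotProduct]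
    refine Finset.sum_congr rfl fun i _ => ?_
    rw [star_mul, Pi.star_apply]
    rw [hC.isHermitian.apply j i, mul_comm]
  rw [h2, Pi.zero_apply, star_eq_zero]

theorem ker_pull {J : Matrix (Fin n) (Fin d) ℂ} {A : Matrix (Fin n) (Fin n) ℂ}
    (hA : A.PosSemidef) (v : Cm d) :
    (∀ l, ∑ k, v k * (J.transpose * A * J.map (starRingEnd ℂ)) k l = 0) ↔
      ∀ l, ∑ k, (J *ᵥ v) k * A k l = 0 := by
  have e1 : v ᵥ* (J.transpose * A * J.map (starRingEnd ℂ)) =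
      ((J *ᵥ v) ᵥ* A) ᵥ* J.map (starRingEnd ℂ) := by
    rw [← Matrix.vecMul_vecMul, ← Matrix.vecMul_vecMul, Matrix.vecMul_transpose]
  have e2 : (∀ l, ∑ k, v k * (J.transpose * A * J.map (starRingEnd ℂ)) k l = 0) ↔
      v ᵥ* (J.transpose * A * J.map (starRingEnd ℂ)) = 0 := by
    rw [funext_iff]; rfl
  have e3 : (∀ l, ∑ k, (J *ᵥ v) k * A k l = 0) ↔ (J *ᵥ v) ᵥ* A = 0 := by
    rw [funext_iff]; rfl
  constructor
  · intro h
    have h0 := e2.1 h
    rw [e1] at h0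
    rw [ker_iff hA, star_star]
    have h2 : J.map (starRingEnd ℂ) *ᵥ star v = star (J *ᵥ v) := by
      funext p
      simp [Matrix.mulVec, dotProduct, map_sum, map_mul]
    rw [← h2, Matrix.dotProduct_mulVec, Matrix.dotProduct_mulVec, h0, zero_dotProduct]
  · intro h
    rw [e2, e1, e3.1 h, Matrix.zero_vecMul]

end mat

section norm

variable {n d M : ℕ} {X F : Type} [TopologicalSpace X] [ChartedSpace (Cm n) X]
  [IsManifold 𝓘(ℂ, Cm n) ω X] [TopologicalSpace F] [ChartedSpace (Cm d) F]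
  [IsManifold 𝓘(ℂ, Cm d) ω F]

/-- the weight of the metric of `m (K_F + Δ|_F)` on the standard frame -/
def wt (Dv : Fin M → Set X) (r : Fin M → X → ℝ) (φ : Chart n X → Cm n → ℝ) (ρ : F → X)
    (G : F → ℂ) (m : ℕ) (k : Set X → ℕ) (t : F) : ℝ :=
  ((‖dj (chartAt (Cm n) (ρ t)) (ρ t) * G t‖ ^ 2)⁻¹) ^ m *
    Real.exp (-(m * φ (chartAt (Cm n) (ρ t)) (chartAt (Cm n) (ρ t) (ρ t)))) *
    ∏ i, r i (ρ t) ^ k (Dv i)

/-- the weight in coordinates -/
def PsiK (Dv : Fin M → Set X) (φ : Chart n X → Cm n → ℝ) (m : ℕ) (k : Set X → ℕ)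
    (E : Chart n X) (ψ : Fin M → Cm n → ℝ) (w : Cm n) : ℝ :=
  m * φ E w + ∑ i, (k (Dv i) : ℝ) * ψ i w

/-- the divisors -/
def TT (Dv : Fin M → Set X) (hinj : Function.Injective Dv) : Finset (Set X) :=
  Finset.univ.map ⟨Dv, hinj⟩

omit [TopologicalSpace X] [ChartedSpace (Cm n) X] [IsManifold 𝓘(ℂ, Cm n) ω X] in
lemma mem_TT {Dv : Fin M → Set X} {hinj : Function.Injective Dv} {D : Set X} :
    D ∈ TT Dv hinj ↔ ∃ i, Dv i = D := by
  simp [TT]

/-- the algebra of the weights -/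
lemma alg {a P GG w A jF η jX Gt δ jc e1 e2 : ℝ} {m : ℕ} (E1 : a * GG = A * jF ^ m)
    (E2 : P = w * GG) (E3 : jX * Gt = η * jF) (E4 : jX = δ * jc) (hη : η ≠ 0) (hδ : δ ≠ 0)
    (hjF : jF ≠ 0) :
    a ^ 2 * (((jc * Gt) ^ 2)⁻¹ ^ m * (e1 * ((δ ^ 2)⁻¹) ^ m) * (P ^ 2 * e2)) =
      (w * A / η ^ m) ^ 2 * (e1 * e2) := by
  have h1 : ((jc * Gt) ^ 2)⁻¹ ^ m * ((δ ^ 2)⁻¹) ^ m = ((η * jF) ^ 2)⁻¹ ^ m := by
    rw [← mul_pow, ← mul_inv, ← mul_pow, ← E3, E4]
    congr 3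
    ring
  have h2 : a ^ 2 * P ^ 2 = w ^ 2 * (A * jF ^ m) ^ 2 := by
    rw [← E1, E2]; ring
  calc a ^ 2 * (((jc * Gt) ^ 2)⁻¹ ^ m * (e1 * ((δ ^ 2)⁻¹) ^ m) * (P ^ 2 * e2))
      = (a ^ 2 * P ^ 2) * (((jc * Gt) ^ 2)⁻¹ ^ m * ((δ ^ 2)⁻¹) ^ m) * (e1 * e2) := by ring
    _ = (w * A / η ^ m) ^ 2 * (e1 * e2) := by
        rw [h1, h2, inv_pow]
        congr 1
        have h3 : ((η * jF) ^ 2) ^ m = (η ^ m) ^ 2 * (jF ^ m) ^ 2 := by
          rw [← pow_mul, ← pow_mul, ← pow_mul, mul_pow]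
          congr 1 <;> ring_nf
        rw [h3]
        have h4 : (jF ^ m) ^ 2 ≠ 0 := pow_ne_zero _ (pow_ne_zero _ hjF)
        have h5 : (η ^ m) ^ 2 ≠ 0 := pow_ne_zero _ (pow_ne_zero _ hη)
        field_simp

variable {ρ : F → X} {Dv : Fin M → Set X} {hinj : Function.Injective Dv} {r : Fin M → X → ℝ}
  {R : Fin M → D.FormM n X} {φ : Chart n X → Cm n → ℝ} {G : F → ℂ} {m : ℕ} {k : Set X → ℕ}

/-- the norm of a section, locally -/
theorem local_norm (hρ : ∀ t, HolM (Cm d) (Cm n) ρ t) (hφ : IsCanonicalMetric φ)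
    (hS : IsSys d (eqF n ρ) (TT Dv hinj)) (hG : ∀ p₀, ∃ η : F → ℂ, HolV (Cm d) η p₀ ∧ η p₀ ≠ 0 ∧
      ∀ᶠ t in 𝓝 p₀, jac (Cm n) (chartAt (Cm n) (ρ p₀)) (ρ t) * G t =
        η t * jac (Cm d) (chartAt (Cm d) p₀) t) (hk : ∀ D, k D ≠ 0 → D ∈ TT Dv hinj)
    {a : F → ℂ} (ha : J.IsSection (Cm d) (eqF n ρ) m k a) (t₀ : F) {g : Fin M → Cm n → ℂ}
    {ψ : Fin M → Cm n → ℝ}
    (hgeq : ∀ i, J.IsLocalEq (Cm n) (Dv i) (fun y => g i (chartAt (Cm n) (ρ t₀) y)) (ρ t₀))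
    (hev : ∀ᶠ z in 𝓝 (chartAt (Cm n) (ρ t₀) (ρ t₀)), ∀ i,
      r i ((chartAt (Cm n) (ρ t₀)).symm z) = ‖g i z‖ ^ 2 * Real.exp (-ψ i z)) :
    ∃ c : F → ℂ, HolV (Cm d) c t₀ ∧ ∀ᶠ t in 𝓝 t₀, t ∈ off (eqF n ρ) (TT Dv hinj) →
      ‖a t‖ ^ 2 * wt Dv r φ ρ G m k t = ‖c t‖ ^ 2 *
        Real.exp (-PsiK Dv φ m k (chartAt (Cm n) (ρ t₀)) ψ (chartAt (Cm n) (ρ t₀) (ρ t))) := by
  classical
  set E : Chart n X := chartAt (Cm n) (ρ t₀) with hEd
  have hE : At E (ρ t₀) := ⟨chart_mem_atlas _ _, mem_chart_source _ _⟩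
  obtain ⟨A, hA, hAe⟩ := rep' hS hk ha t₀
  let gF : Set X → F → ℂ := Function.extend Dv (fun i t => g i (E (ρ t))) (fun _ _ => 1)
  have hgF : ∀ D ∈ TT Dv hinj, eqF n ρ D t₀ (gF D) := by
    intro D hD
    obtain ⟨i, rfl⟩ := mem_TT.1 hD
    refine ⟨fun y => g i (E y), hgeq i, Eventually.of_forall fun t => ?_⟩
    show Function.extend Dv (fun i t => g i (E (ρ t))) (fun _ _ => 1) (Dv i) t = _
    rw [hinj.extend_apply]
  obtain ⟨w, hw, hw0, hwe⟩ := hS.prod_unit hk hk hgF (hS.self_mem_dom t₀)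
  obtain ⟨η, hη, hη0, hηe⟩ := hG t₀
  refine ⟨fun t => w t * A t / η t ^ m, (hw.mul hA).div (hη.pow m) (pow_ne_zero _ hη0), ?_⟩
  have hρc : ContinuousAt ρ t₀ := (hρ t₀).continuousAt
  have hEc : ContinuousAt (fun t => E (ρ t)) t₀ :=
    ContinuousAt.comp (g := E) (E.continuousAt hE.2) hρc
  have hev' : ∀ᶠ t in 𝓝 t₀, ∀ i, r i (E.symm (E (ρ t))) =
      ‖g i (E (ρ t))‖ ^ 2 * Real.exp (-ψ i (E (ρ t))) := hEc.eventually hev
  filter_upwards [hAe, hwe, hηe, hη.continuousAt.eventually_ne hη0, hev', hρc.eventually (at_evE hE),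
    dom_evE hS (hS.self_mem_dom t₀),
    (chartAt (Cm d) t₀).open_source.mem_nhds (mem_chart_source (Cm d) t₀)]
    with t h1 h2 h3 h4 h5 h6 h7 h8 ht
  have hGG : hS.GG k t₀ t ≠ 0 := hS.GG_ne h7 ht k
  have h1' := h1 hGG
  have hc : At (chartAt (Cm n) (ρ t)) (ρ t) := ⟨chart_mem_atlas _ _, mem_chart_source _ _⟩
  have hr : ∀ i, r i (ρ t) = ‖g i (E (ρ t))‖ ^ 2 * Real.exp (-ψ i (E (ρ t))) := by
    intro i
    have := h5 i
    rwa [h6.left_inv] at this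
  have hP : ∏ i, r i (ρ t) ^ k (Dv i) = ‖∏ D ∈ TT Dv hinj, gF D t ^ k D‖ ^ 2 *
      Real.exp (-∑ i, (k (Dv i) : ℝ) * ψ i (E (ρ t))) := by
    rw [TT, Finset.prod_map, norm_prod, ← Finset.prod_pow, ← Finset.sum_neg_distrib, Real.exp_sum,
      ← Finset.prod_mul_distrib]
    refine Finset.prod_congr rfl fun i _ => ?_
    have e1 : gF ((⟨Dv, hinj⟩ : Fin M ↪ Set X) i) t = g i (E (ρ t)) := by
      show Function.extend Dv (fun i t => g i (E (ρ t))) (fun _ _ => 1) (Dv i) t = _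
      rw [hinj.extend_apply]
    rw [e1, hr, mul_pow, norm_pow, ← Real.exp_nat_mul]
    have e2 : k ((⟨Dv, hinj⟩ : Fin M ↪ Set X) i) = k (Dv i) := rfl
    rw [e2]
    congr 1
    · ring
    · congr 1; ring
  have hjm := jacM_det_ne_zero hc h6
  have hphi := hφ.change _ E (ρ t) hc h6
  have hexp : Real.exp (-(m * φ (chartAt (Cm n) (ρ t)) (chartAt (Cm n) (ρ t) (ρ t)))) =
      Real.exp (-(m * φ E (E (ρ t)))) *
        ((‖(jacM (chartAt (Cm n) (ρ t)) E (ρ t)).det‖ ^ 2)⁻¹) ^ m := by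
    have hpos : (0 : ℝ) < ‖(jacM (chartAt (Cm n) (ρ t)) E (ρ t)).det‖ ^ 2 := by
      have := norm_pos_iff.2 hjm
      positivity
    rw [hphi, mul_add, neg_add, Real.exp_add]
    congr 1
    rw [← mul_neg, Real.exp_nat_mul, Real.exp_neg, Real.exp_log hpos]
  have key := alg (a := ‖a t‖) (P := ‖∏ D ∈ TT Dv hinj, gF D t ^ k D‖) (GG := ‖hS.GG k t₀ t‖)
    (w := ‖w t‖) (A := ‖A t‖) (jF := ‖jac (Cm d) (chartAt (Cm d) t₀) t‖) (η := ‖η t‖)
    (jX := ‖jac (Cm n) E (ρ t)‖) (Gt := ‖G t‖)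
    (δ := ‖(jacM (chartAt (Cm n) (ρ t)) E (ρ t)).det‖)
    (jc := ‖dj (chartAt (Cm n) (ρ t)) (ρ t)‖) (e1 := Real.exp (-(m * φ E (E (ρ t)))))
    (e2 := Real.exp (-∑ i, (k (Dv i) : ℝ) * ψ i (E (ρ t)))) (m := m)
    (by rw [← norm_mul, h1', norm_mul, norm_pow]) (by rw [h2, norm_mul])
    (by rw [← norm_mul, h3, norm_mul])
    (by
      have : jac (Cm n) E (ρ t) = (jacM (chartAt (Cm n) (ρ t)) E (ρ t)).det *
        dj (chartAt (Cm n) (ρ t)) (ρ t) := dj_eq hc h6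
      rw [this, norm_mul])
    (norm_ne_zero_iff.2 h4) (norm_ne_zero_iff.2 hjm)
    (norm_ne_zero_iff.2 (jac_chart_ne_zero h8))
  rw [wt, hexp, hP, norm_mul, key, PsiK, neg_add, Real.exp_add, norm_div, norm_mul, norm_pow]

/-- the norm of a section -/
def Nrm (Dv : Fin M → Set X) (hinj : Function.Injective Dv) (r : Fin M → X → ℝ)
    (φ : Chart n X → Cm n → ℝ) (ρ : F → X) (G : F → ℂ) (m : ℕ) (k : Set X → ℕ) (a : F → ℂ)
    (t : F) : ℝ :=
  (ext (off (eqF n ρ) (TT Dv hinj))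
    (fun t => ((‖a t‖ ^ 2 * wt Dv r φ ρ G m k t : ℝ) : ℂ)) t).re

lemma Nrm_eq (hS : IsSys d (eqF n ρ) (TT Dv hinj)) {a : F → ℂ} {H : F → ℝ} {t : F}
    (hH : ContinuousAt H t) (hev : ∀ᶠ t in 𝓝 t, t ∈ off (eqF n ρ) (TT Dv hinj) →
      ‖a t‖ ^ 2 * wt Dv r φ ρ G m k t = H t) : Nrm Dv hinj r φ ρ G m k a t = H t := by
  unfold Nrm
  rw [ext_eq hS.dense_off (H := fun t => ((H t : ℝ) : ℂ))
    (Complex.continuous_ofReal.continuousAt.comp hH) ?_]
  · exact Complex.ofReal_re _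
  · filter_upwards [hev] with z hz hzS
    rw [hz hzS]

lemma smooth_Psi (hφ : IsCanonicalMetric φ) {E : Chart n X} {x : X} (hE : At E x)
    {ψ : Fin M → Cm n → ℝ} (hψ : ∀ i, ContDiffAt ℝ ∞ (ψ i) (E x)) :
    ContDiffAt ℝ ∞ (PsiK Dv φ m k E ψ) (E x) :=
  (contDiffAt_const.mul (hφ.smooth E x hE)).add
    (ContDiffAt.sum fun i _ => contDiffAt_const.mul (hψ i))

theorem Nrm_ev (hρ : ∀ t, HolM (Cm d) (Cm n) ρ t) (hφ : IsCanonicalMetric φ)
    (hS : IsSys d (eqF n ρ) (TT Dv hinj)) {a : F → ℂ} {t₀ : F} {ψ : Fin M → Cm n → ℝ}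
    (hψ : ∀ i, ContDiffAt ℝ ∞ (ψ i) (chartAt (Cm n) (ρ t₀) (ρ t₀))) {c : F → ℂ}
    (hc : HolV (Cm d) c t₀) (hev : ∀ᶠ t in 𝓝 t₀, t ∈ off (eqF n ρ) (TT Dv hinj) →
      ‖a t‖ ^ 2 * wt Dv r φ ρ G m k t = ‖c t‖ ^ 2 *
        Real.exp (-PsiK Dv φ m k (chartAt (Cm n) (ρ t₀)) ψ (chartAt (Cm n) (ρ t₀) (ρ t)))) :
    ∀ᶠ t in 𝓝 t₀, Nrm Dv hinj r φ ρ G m k a t = ‖c t‖ ^ 2 *
      Real.exp (-PsiK Dv φ m k (chartAt (Cm n) (ρ t₀)) ψ (chartAt (Cm n) (ρ t₀) (ρ t))) := by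
  set E : Chart n X := chartAt (Cm n) (ρ t₀) with hEd
  have hE : At E (ρ t₀) := ⟨chart_mem_atlas _ _, mem_chart_source _ _⟩
  have hρc : ContinuousAt ρ t₀ := (hρ t₀).continuousAt
  have hEc : ContinuousAt (fun t => E (ρ t)) t₀ :=
    ContinuousAt.comp (g := E) (E.continuousAt hE.2) hρc
  have hs : ContDiffAt ℝ 0 (PsiK Dv φ m k E ψ) (E (ρ t₀)) :=
    (smooth_Psi hφ hE hψ).of_le bot_le
  have hs1 : ∀ᶠ w in 𝓝 (E (ρ t₀)), ContinuousAt (PsiK Dv φ m k E ψ) w :=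
    (hs.eventually (by simp)).mono fun w hw => hw.continuousAt
  have hh : ∀ᶠ t in 𝓝 t₀, ContinuousAt (fun t => E (ρ t)) t := by
    have h1 : HolV (Cm d) (fun t => E (ρ t)) t₀ :=
      HolV.comp (h := (E : X → Cm n)) (HolV.chart (mem_chart_source (Cm n) (ρ t₀))) (hρ t₀)
    exact h1.eventually.mono fun t ht => ht.continuousAt
  filter_upwards [hc.eventually, hEc.eventually hs1, hh, eventually_eventually_nhds.2 hev]
    with t h1 h2 h3 h4
  refine Nrm_eq (H := fun t => ‖c t‖ ^ 2 * Real.exp (-PsiK Dv φ m k E ψ (E (ρ t)))) hS ?_ h4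
  refine (h1.continuousAt.norm.pow 2).mul ?_
  exact Real.continuous_exp.continuousAt.comp
    (ContinuousAt.comp (f := fun t => E (ρ t)) (g := PsiK Dv φ m k E ψ) h2 h3).neg

/-- the class of `K_X + Δ` is closed -/
theorem isClosedForm_clsK {dl : Fin M → ℝ} (hφ : IsCanonicalMetric φ)
    (hR : ∀ i, IsClosedForm (R i)) : IsClosedForm (clsK φ dl R) := by
  classical
  have h1 : ∀ s : Finset (Fin M), IsClosedForm fun (e : Chart n X) z =>
      cHess (φ e) z + ∑ i ∈ s, ((dl i : ℝ) : ℂ) • R i e z := by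
    intro s
    induction s using Finset.induction_on with
    | empty =>
      have h2 := INT.isClosedForm_canonical hφ
      simpa using h2
    | insert a s ha ih =>
      have h2 := ih.add ((hR a).smul ((dl a : ℝ) : ℂ))
      have h3 : (fun (e : Chart n X) z => cHess (φ e) z +
          ∑ i ∈ insert a s, ((dl i : ℝ) : ℂ) • R i e z) = fun e z =>
          (cHess (φ e) z + ∑ i ∈ s, ((dl i : ℝ) : ℂ) • R i e z) + ((dl a : ℝ) : ℂ) • R a e z := by
        funext e z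
        rw [Finset.sum_insert ha]
        abel
      rw [h3]
      exact h2
  exact h1 Finset.univ

lemma two_le_inf' : (2 : WithTop ℕ∞) ≤ ∞ := by norm_cast

/-- the complex Hessian of the weight -/
lemma cHess_Psi (hφ : IsCanonicalMetric φ) {Δ : Set X → ℝ} (hk : ∀ D, (k D : ℝ) = m * Δ D)
    {E : Chart n X} {x : X} (hE : At E x) {ψ : Fin M → Cm n → ℝ}
    (hψ : ∀ i, ContDiffAt ℝ ∞ (ψ i) (E x)) (hR : ∀ i, R i E (E x) = cHess (ψ i) (E x)) :
    cHess (PsiK Dv φ m k E ψ) (E x) = (m : ℂ) • clsK φ (fun i => Δ (Dv i)) R E (E x) := by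
  classical
  have hs : ∀ s : Finset (Fin M), cHess (fun w => (m : ℝ) * φ E w + ∑ i ∈ s, (k (Dv i) : ℝ) * ψ i w)
      (E x) = (m : ℂ) • cHess (φ E) (E x) + ∑ i ∈ s, ((k (Dv i) : ℝ) : ℂ) • cHess (ψ i) (E x) := by
    intro s
    induction s using Finset.induction_on with
    | empty =>
      simp only [Finset.sum_empty, add_zero]
      rw [cHess_const_mul _ ((hφ.smooth E x hE).of_le two_le_inf')]
      norm_num
    | insert a s ha ih =>
      have h1 : (fun w => (m : ℝ) * φ E w + ∑ i ∈ insert a s, (k (Dv i) : ℝ) * ψ i w) =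
          fun w => ((m : ℝ) * φ E w + ∑ i ∈ s, (k (Dv i) : ℝ) * ψ i w) +
            (k (Dv a) : ℝ) * ψ a w := by
        funext w
        rw [Finset.sum_insert ha]
        ring
      have h2 : ContDiffAt ℝ 2 (fun w => (m : ℝ) * φ E w + ∑ i ∈ s, (k (Dv i) : ℝ) * ψ i w)
          (E x) := (contDiffAt_const.mul ((hφ.smooth E x hE).of_le two_le_inf')).add
        (ContDiffAt.sum fun i _ => contDiffAt_const.mul ((hψ i).of_le two_le_inf'))
      rw [h1, cHess_add h2 (contDiffAt_const.mul ((hψ a).of_le two_le_inf')), ih,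
        cHess_const_mul _ ((hψ a).of_le two_le_inf'), Finset.sum_insert ha]
      abel
  have h3 := hs Finset.univ
  have h4 : cHess (PsiK Dv φ m k E ψ) (E x) = _ := h3
  rw [h4]
  unfold clsK
  rw [smul_add, Finset.smul_sum]
  congr 1
  refine Finset.sum_congr rfl fun i _ => ?_
  rw [hR i, smul_smul, hk (Dv i)]
  congr 1
  push_cast
  ring

end norm

/-- **Block FK**. -/
theorem fibPartK : FibPartK := by
  intro n p d hn M X Z Y F _ _ _ _ _ _ _ _ _ _ _ _ _ _ _ _ _ _ j hj f hf i hi Δ hΔ Dv hinj hDv r R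
    hBd φ hφ hpsd hne
  classical
  have hjM : ∀ z, HolM (Cm n) (Cm n) j z := fun z => hj.1 z
  have hjd : ∀ z, (dM (Cm n) (Cm n) j z).det ≠ 0 := by
    intro z h0
    have h1 : Function.Injective (dM (Cm n) (Cm n) j z) := hj.2.2.1 z
    have h2 : LinearMap.det ((dM (Cm n) (Cm n) j z : Cm n →L[ℂ] Cm n) : Cm n →ₗ[ℂ] Cm n) = 0 := h0
    have h3 := LinearMap.bot_lt_ker_of_det_eq_zero h2
    have h4 : LinearMap.ker ((dM (Cm n) (Cm n) j z : Cm n →L[ℂ] Cm n) : Cm n →ₗ[ℂ] Cm n) = ⊥ :=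
      LinearMap.ker_eq_bot.2 h1
    rw [h4] at h3
    exact lt_irrefl _ h3
  have hfM : ∀ z, HolM (Cm n) (Cm p) f z := fun z => hf z
  obtain ⟨G, hG0, hG⟩ := adjF hn hjM hjd hfM hi
  set ρ : F → X := fun t => j (i t) with hρd
  have hρ' : ContMDiff 𝓘(ℂ, Cm d) 𝓘(ℂ, Cm n) ω ρ := hj.1.comp hi.hol
  have hρ : ∀ t, HolM (Cm d) (Cm n) ρ t := fun t => hρ' t
  have hT : ∀ D ∈ TT Dv hinj, Δ D ≠ 0 := fun D hD => (hDv D).2 (mem_TT.1 hD)
  have hex : ∀ D ∈ TT Dv hinj, ∀ x, ∃ g, J.IsLocalEq (Cm n) D g x := fun D hD x =>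
    (hΔ.2.1 D (hT D hD)).2.1 x
  have hS : IsSys d (eqF n ρ) (TT Dv hinj) := isSys_eqF hρ hex fun D hD => hne D (hT D hD)
  have hcl : IsClosedForm (clsK φ (fun i => Δ (Dv i)) R) := isClosedForm_clsK hφ hBd.closed
  have hΛ : ∀ (e : Chart d F) t (E : Chart n X), At e t → At E (ρ t) →
      D.pullM ρ (clsK φ (fun i => Δ (Dv i)) R) e (e t) = (D.jacF ρ e E t).transpose *
        clsK φ (fun i => Δ (Dv i)) R E (E (ρ t)) * (D.jacF ρ e E t).map (starRingEnd ℂ) :=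
    fun e t E he hE => H956.pullM_eq hcl.form (hρ t) he hE
  refine ⟨D.pullM ρ (clsK φ (fun i => Δ (Dv i)) R), isClosedForm_pullM hcl hρ', ?_, ?_, ?_⟩
  · intro e t he
    have hE : At (chartAt (Cm n) (ρ t)) (ρ t) := ⟨chart_mem_atlas _ _, mem_chart_source _ _⟩
    rw [hΛ e t _ he hE]
    exact psd_pull (hpsd _ _ hE)
  · intro e t E he hE v
    rw [hΛ e t E he hE, ker_pull (hpsd _ _ hE)]
    refine forall_congr' fun l => ?_
    have h1 : fderiv ℂ (fun z => E (j (i (e.symm z)))) (e t) v = D.jacF ρ e E t *ᵥ v := by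
      rw [H956.jacF_eq]
      exact H956.jmR_mulVec (H956.rep_diff (hρ t) he hE) v
    rw [h1]
  · intro m k a₀ a₁ hk ha₀ ha₁
    have hkT : ∀ D, k D ≠ 0 → D ∈ TT Dv hinj := by
      intro D hD
      refine mem_TT.2 ((hDv D).1 fun h0 => hD ?_)
      have h1 := hk D
      rw [h0, mul_zero] at h1
      exact_mod_cast h1
    have ha₀' : J.IsSection (Cm d) (eqF n ρ) m k a₀ := ha₀
    have ha₁' : J.IsSection (Cm d) (eqF n ρ) m k a₁ := ha₁
    -- local data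
    have loc : ∀ t₀ : F, ∃ ψ : Fin M → Cm n → ℝ,
        (∀ l, ContDiffAt ℝ ∞ (ψ l) (chartAt (Cm n) (ρ t₀) (ρ t₀))) ∧
        (∀ l, R l (chartAt (Cm n) (ρ t₀)) (chartAt (Cm n) (ρ t₀) (ρ t₀)) =
          cHess (ψ l) (chartAt (Cm n) (ρ t₀) (ρ t₀))) ∧
        ∀ a : F → ℂ, J.IsSection (Cm d) (eqF n ρ) m k a → ∃ c : F → ℂ, HolV (Cm d) c t₀ ∧
          (∀ᶠ t in 𝓝 t₀, t ∈ off (eqF n ρ) (TT Dv hinj) →
            ‖a t‖ ^ 2 * wt Dv r φ ρ G m k t = ‖c t‖ ^ 2 * Real.exp (-PsiK Dv φ m k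
              (chartAt (Cm n) (ρ t₀)) ψ (chartAt (Cm n) (ρ t₀) (ρ t)))) ∧
          ∀ᶠ t in 𝓝 t₀, Nrm Dv hinj r φ ρ G m k a t = ‖c t‖ ^ 2 * Real.exp (-PsiK Dv φ m k
              (chartAt (Cm n) (ρ t₀)) ψ (chartAt (Cm n) (ρ t₀) (ρ t))) := by
      intro t₀
      have hE : At (chartAt (Cm n) (ρ t₀)) (ρ t₀) := ⟨chart_mem_atlas _ _, mem_chart_source _ _⟩
      obtain ⟨g, ψ, hg, hψ, hgeq, -, hev⟩ := hBd.loc _ _ hE
      refine ⟨ψ, hψ, fun l => (hev.self_of_nhds l).2, fun a ha => ?_⟩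
      obtain ⟨c, hc, hce⟩ := local_norm (r := r) hρ hφ hS hG hkT ha t₀ (g := g) (ψ := ψ) hgeq
        (hev.mono fun z hz l => (hz l).1)
      exact ⟨c, hc, hce, Nrm_ev hρ hφ hS hψ hc hce⟩
    have hsm : ∀ a : F → ℂ, J.IsSection (Cm d) (eqF n ρ) m k a →
        SmoothFn (n := d) (Nrm Dv hinj r φ ρ G m k a) := by
      intro a ha e t he
      obtain ⟨ψ, hψ, -, hc⟩ := loc t
      obtain ⟨c, hc, -, hce⟩ := hc a ha
      have hE : At (chartAt (Cm n) (ρ t)) (ρ t) := ⟨chart_mem_atlas _ _, mem_chart_source _ _⟩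
      have h1 : ContDiffAt ℂ ω (fun z => c (e.symm z)) (e t) := holV_chart he hc
      have h2 : ContDiffAt ℂ ω (fun z => chartAt (Cm n) (ρ t) (ρ (e.symm z))) (e t) :=
        H956.rep_hol (hρ t) he hE
      have h3 : Tendsto e.symm (𝓝 (e t)) (𝓝 t) := by
        have := e.continuousAt_symm he.mem_target
        rwa [ContinuousAt, he.left_inv] at this
      have h4 : ContDiffAt ℝ ∞ (fun z => ‖c (e.symm z)‖ ^ 2 * Real.exp (-PsiK Dv φ m k
          (chartAt (Cm n) (ρ t)) ψ (chartAt (Cm n) (ρ t) (ρ (e.symm z))))) (e t) := by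
        refine (((h1.restrict_scalars ℝ).of_le (by exact le_top)).norm_sq ℝ).mul ?_
        refine (ContDiffAt.neg ?_).exp
        refine ContDiffAt.comp (e t) (g := PsiK Dv φ m k (chartAt (Cm n) (ρ t)) ψ)
          (f := fun z => chartAt (Cm n) (ρ t) (ρ (e.symm z))) ?_
          ((h2.restrict_scalars ℝ).of_le (by exact le_top))
        rw [he.left_inv]
        exact smooth_Psi hφ hE hψ
      exact h4.congr_of_eventuallyEq (h3.eventually hce)
    refine ⟨Nrm Dv hinj r φ ρ G m k a₀, Nrm Dv hinj r φ ρ G m k a₁, hsm a₀ ha₀', hsm a₁ ha₁',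
      ?_, ?_⟩
    · intro t
      obtain ⟨ψ, hψ, hRψ, hc⟩ := loc t
      obtain ⟨c₀, hc₀, -, hce₀⟩ := hc a₀ ha₀'
      obtain ⟨c₁, hc₁, -, hce₁⟩ := hc a₁ ha₁'
      set e : Chart d F := chartAt (Cm d) t with hed
      have he : At e t := ⟨chart_mem_atlas _ _, mem_chart_source _ _⟩
      have hE : At (chartAt (Cm n) (ρ t)) (ρ t) := ⟨chart_mem_atlas _ _, mem_chart_source _ _⟩
      set E : Chart n X := chartAt (Cm n) (ρ t) with hEd
      have h2 : ContDiffAt ℂ ω (fun z => E (ρ (e.symm z))) (e t) := H956.rep_hol (hρ t) he hE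
      have h3 : Tendsto e.symm (𝓝 (e t)) (𝓝 t) := by
        have := e.continuousAt_symm he.mem_target
        rwa [ContinuousAt, he.left_inv] at this
      have hy : E (ρ (e.symm (e t))) = E (ρ t) := by rw [he.left_inv]
      have hsP : ContDiffAt ℝ ∞ (PsiK Dv φ m k E ψ) (E (ρ (e.symm (e t)))) := by
        rw [hy]; exact smooth_Psi hφ hE hψ
      refine ⟨e, fun z => PsiK Dv φ m k E ψ (E (ρ (e.symm z))), fun z => c₀ (e.symm z),
        fun z => c₁ (e.symm z), he, ?_, ?_, ?_, ?_, ?_⟩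
      · exact ContDiffAt.comp (e t) (g := PsiK Dv φ m k E ψ)
          (f := fun z => E (ρ (e.symm z))) hsP ((h2.restrict_scalars ℝ).of_le (by exact le_top))
      · exact (holV_chart he hc₀).analyticAt
      · exact (holV_chart he hc₁).analyticAt
      · rw [H956.cHess_compR (τ := fun z => E (ρ (e.symm z))) (f := PsiK Dv φ m k E ψ)
          (hsP.of_le two_le_inf') h2, hy, cHess_Psi hφ hk hE hψ hRψ, hΛ e t E he hE,
          ← H956.jacF_eq]
        simp only [Matrix.mul_smul, Matrix.smul_mul]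
      · filter_upwards [h3.eventually hce₀, h3.eventually hce₁] with z h4 h5
        exact ⟨h4, h5⟩
    · intro t ht h0 h1
      have htoff : t ∈ off (eqF n ρ) (TT Dv hinj) := by
        refine (off_eqF hρ hex).2 fun D hD => ?_
        obtain ⟨l, rfl⟩ := mem_TT.1 hD
        exact ht l
      obtain ⟨ψ, hψ, hRψ, hc⟩ := loc t
      have hE : At (chartAt (Cm n) (ρ t)) (ρ t) := ⟨chart_mem_atlas _ _, mem_chart_source _ _⟩
      have hw : 0 < wt Dv r φ ρ G m k t := by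
        unfold wt
        refine mul_pos (mul_pos (pow_pos (inv_pos.2 (pow_pos (norm_pos_iff.2
          (mul_ne_zero (dj_ne_zero hE) (hG0 t))) 2)) m) (Real.exp_pos _)) ?_
        refine Finset.prod_pos fun l _ => pow_pos ?_ _
        obtain ⟨g, ψ', -, -, hgeq, -, hev⟩ := hBd.loc _ _ hE
        have h2 := (hev.self_of_nhds l).1
        rw [hE.left_inv] at h2
        rw [h2]
        have h3 : g l (chartAt (Cm n) (ρ t) (ρ t)) ≠ 0 := fun h4 => ht l ((mem_iffE (hgeq l)).2 h4)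
        exact mul_pos (pow_pos (norm_pos_iff.2 h3) 2) (Real.exp_pos _)
      have hval : ∀ a : F → ℂ, J.IsSection (Cm d) (eqF n ρ) m k a →
          Nrm Dv hinj r φ ρ G m k a t = ‖a t‖ ^ 2 * wt Dv r φ ρ G m k t := by
        intro a ha
        obtain ⟨c, -, h2, h3⟩ := hc a ha
        rw [h3.self_of_nhds, h2.self_of_nhds htoff]
      rw [hval a₀ ha₀', hval a₁ ha₁']
      have h2 : 0 < ‖a₀ t‖ ^ 2 := pow_pos (norm_pos_iff.2 h0) 2
      have h3 : 0 < ‖a₁ t‖ ^ 2 := pow_pos (norm_pos_iff.2 h1) 2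
      refine ⟨mul_pos h2 hw, mul_pos h3 hw, ?_⟩
      rw [Real.log_mul h3.ne' hw.ne', Real.log_mul h2.ne' hw.ne']
      ring

end Vale.Agent.P281.H776.KD
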